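import Vale.Agent.P369.MathlibUsed

/-!
Quantum definitions for the entropy photon-number inequality.
An `n`-mode system is a Hilbert space `H` with the number states `e k`; the two groups of modes
`a_j`, `b_j` together are a Hilbert space `K` with the number states `f k l`.
-/

namespace Vale.Agent.P369

open scoped InnerProductSpace

noncomputable section

/-- Photon-number configurations of `n` modes. -/
abbrev Conf (n : ℕ) : Type := Fin n → ℕ

/-- One more photon in mode `j`. -/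
def up {n : ℕ} (k : Conf n) (j : Fin n) : Conf n := Function.update k j (k j + 1)

/-- One photon less in mode `j` (no change if there is none). -/
def down {n : ℕ} (k : Conf n) (j : Fin n) : Conf n := Function.update k j (k j - 1)

/-- `g(t) = (t+1) log (t+1) - t log t`. -/
def g (t : ℝ) : ℝ := (t + 1) * Real.log (t + 1) - t * Real.log t

/-- The operator `-ρ log ρ`, by the continuous functional calculus. -/
def negMulLogOp {H : Type} [NormedAddCommGroup H] [InnerProductSpace ℂ H] [CompleteSpace H]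
    (ρ : H →L[ℂ] H) : H →L[ℂ] H := cfc Real.negMulLog ρ

namespace Sys

variable {n : ℕ} {H K : Type} [NormedAddCommGroup H] [InnerProductSpace ℂ H]
  [NormedAddCommGroup K] [InnerProductSpace ℂ K]

/-- The number states: an orthonormal family with dense span. -/
def IsNumberBasis {ι : Type} (e : ι → H) : Prop :=
  Orthonormal ℂ e ∧ Dense (Submodule.span ℂ (Set.range e) : Set H)

/-- `a_j |k, l⟩`. -/
def annA (f : Conf n → Conf n → K) (j : Fin n) (k l : Conf n) : K :=
  (Real.sqrt (k j) : ℂ) • f (down k j) l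

/-- `b_j |k, l⟩`. -/
def annB (f : Conf n → Conf n → K) (j : Fin n) (k l : Conf n) : K :=
  (Real.sqrt (l j) : ℂ) • f k (down l j)

/-- `a_j† |k, l⟩`. -/
def creA (f : Conf n → Conf n → K) (j : Fin n) (k l : Conf n) : K :=
  (Real.sqrt (k j + 1) : ℂ) • f (up k j) l

/-- `b_j† |k, l⟩`. -/
def creB (f : Conf n → Conf n → K) (j : Fin n) (k l : Conf n) : K :=
  (Real.sqrt (l j + 1) : ℂ) • f k (up l j)

/-- `U` is the beam splitter of transmissivity `η`: a unitary fixing the vacuum with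
`a_j U = U (√η a_j + √(1-η) b_j)` and `b_j U = U (-√(1-η) a_j + √η b_j)`
between all number states. -/
def IsBeamSplitter (η : ℝ) (f : Conf n → Conf n → K) (U : K ≃ₗᵢ[ℂ] K) : Prop :=
  U (f 0 0) = f 0 0 ∧
  ∀ (j : Fin n) (k l k' l' : Conf n),
    ⟪creA f j k' l', U (f k l)⟫_ℂ = ⟪f k' l',
      U ((Real.sqrt η : ℂ) • annA f j k l + (Real.sqrt (1 - η) : ℂ) • annB f j k l)⟫_ℂ ∧
    ⟪creB f j k' l', U (f k l)⟫_ℂ = ⟪f k' l',
      U (-(Real.sqrt (1 - η) : ℂ) • annA f j k l + (Real.sqrt η : ℂ) • annB f j k l)⟫_ℂ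

/-- Density operators: positive operators of trace one. -/
def IsState (e : Conf n → H) (ρ : H →L[ℂ] H) : Prop :=
  ρ.IsPositive ∧ HasSum (fun k => ⟪e k, ρ (e k)⟫_ℂ) 1

/-- Finite mean photon number, `Tr ρ Σ_j a_j† a_j < ∞`. -/
def FiniteEnergy (e : Conf n → H) (ρ : H →L[ℂ] H) : Prop :=
  Summable (fun k : Conf n => (∑ j, (k j : ℝ)) * (⟪e k, ρ (e k)⟫_ℂ).re)

/-- The von Neumann entropy `-Tr ρ log ρ`. -/
def entropy [CompleteSpace H] (e : Conf n → H) (ρ : H →L[ℂ] H) : ℝ :=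
  ∑' k, (⟪e k, negMulLogOp ρ (e k)⟫_ℂ).re

/-- The entropy photon number `N(ρ) = g⁻¹(S(ρ)/n)`, with `g⁻¹` the inverse of `g` on `[0,∞)`. -/
def photonNumber [CompleteSpace H] (e : Conf n → H) (ρ : H →L[ℂ] H) : ℝ :=
  Function.invFunOn g (Set.Ici 0) (entropy e ρ / n)

/-- `ρAB = ρA ⊗ ρB`, in matrix elements. -/
def IsProduct (e : Conf n → H) (f : Conf n → Conf n → K) (ρA ρB : H →L[ℂ] H)
    (ρAB : K →L[ℂ] K) : Prop :=
  ∀ k l k' l' : Conf n,
    ⟪f k l, ρAB (f k' l')⟫_ℂ = ⟪e k, ρA (e k')⟫_ℂ * ⟪e l, ρB (e l')⟫_ℂ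

/-- `ρC` is the partial trace over the `b`-modes of `U (ρA ⊗ ρB) U†`,
with `U` the beam splitter of transmissivity `η`. -/
def IsOutput (η : ℝ) (e : Conf n → H) (f : Conf n → Conf n → K) (ρA ρB ρC : H →L[ℂ] H) : Prop :=
  ∃ (U : K ≃ₗᵢ[ℂ] K) (ρAB : K →L[ℂ] K), IsBeamSplitter η f U ∧ IsProduct e f ρA ρB ρAB ∧
    ∀ m m' : Conf n,
      HasSum (fun l => ⟪f m l, U (ρAB (U.symm (f m' l)))⟫_ℂ) ⟪e m, ρC (e m')⟫_ℂ

/-- `ρ` is diagonal in the number basis with eigenvalues nonincreasing in each photon number. -/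
def IsPassive (e : Conf n → H) (ρ : H →L[ℂ] H) : Prop :=
  ∃ p : Conf n → ℝ, Antitone p ∧ ∀ k, ρ (e k) = (p k : ℂ) • e k

end Sys

end

end Vale.Agent.P369
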