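import Vale.Agent.P369.Setup

namespace Vale.Agent.P369.Sys

/-- `ρ` is diagonal in the number basis. -/
def IsNumberDiagonal {n : ℕ} {H : Type} [NormedAddCommGroup H] [InnerProductSpace ℂ H]
    (e : Conf n → H) (ρ : H →L[ℂ] H) : Prop :=
  ∃ p : Conf n → ℝ, ∀ k, ρ (e k) = (p k : ℂ) • e k

end Vale.Agent.P369.Sys
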