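import Mathlib
import Vale.Agent.P369.Setup

/-!
Quantum definitions for the entropy photon-number inequality.
-/

namespace Vale.Agent.P369

open scoped InnerProductSpace

noncomputable section

/-- The `n`-mode Fock space, square-summable families indexed by configurations. -/
abbrev Fock (n : ℕ) : Type := lp (fun _ : Conf n => ℂ) 2

/-- The joint Fock space of the modes `a_j` (first index) and `b_j` (second index). -/
abbrev Fock2 (n : ℕ) : Type := lp (fun _ : Conf n × Conf n => ℂ) 2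

/-- The number state `|k⟩` of `n` modes. -/
def ket {n : ℕ} (k : Conf n) : Fock n := lp.single 2 k (1 : ℂ)

/-- The number state `|k⟩ ⊗ |l⟩` of the modes `a_j` and `b_j`. -/
def ket2 {n : ℕ} (k l : Conf n) : Fock2 n := lp.single 2 (k, l) (1 : ℂ)

/-- `a_j |k, l⟩`. -/
def annA {n : ℕ} (j : Fin n) (k l : Conf n) : Fock2 n := (Real.sqrt (k j) : ℂ) • ket2 (down k j) l

/-- `b_j |k, l⟩`. -/
def annB {n : ℕ} (j : Fin n) (k l : Conf n) : Fock2 n := (Real.sqrt (l j) : ℂ) • ket2 k (down l j)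

/-- `a_j† |k, l⟩`. -/
def creA {n : ℕ} (j : Fin n) (k l : Conf n) : Fock2 n :=
  (Real.sqrt (k j + 1) : ℂ) • ket2 (up k j) l

/-- `b_j† |k, l⟩`. -/
def creB {n : ℕ} (j : Fin n) (k l : Conf n) : Fock2 n :=
  (Real.sqrt (l j + 1) : ℂ) • ket2 k (up l j)

/-- `U` is the beam splitter of transmissivity `η`: a unitary fixing the vacuum with
`a_j U = U (√η a_j + √(1-η) b_j)` and `b_j U = U (-√(1-η) a_j + √η b_j)`
between all number states. -/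
def IsBeamSplitter {n : ℕ} (η : ℝ) (U : Fock2 n ≃ₗᵢ[ℂ] Fock2 n) : Prop :=
  U (ket2 0 0) = ket2 0 0 ∧
  (∀ (j : Fin n) (k l k' l' : Conf n),
    ⟪creA j k' l', U (ket2 k l)⟫_ℂ =
      ⟪ket2 k' l', U ((Real.sqrt η : ℂ) • annA j k l + (Real.sqrt (1 - η) : ℂ) • annB j k l)⟫_ℂ) ∧
  (∀ (j : Fin n) (k l k' l' : Conf n),
    ⟪creB j k' l', U (ket2 k l)⟫_ℂ =
      ⟪ket2 k' l', U (-(Real.sqrt (1 - η) : ℂ) • annA j k l + (Real.sqrt η : ℂ) • annB j k l)⟫_ℂ)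

/-- Density operators: positive operators of trace one. -/
def IsState {n : ℕ} (ρ : Fock n →L[ℂ] Fock n) : Prop :=
  ρ.IsPositive ∧ HasSum (fun k : Conf n => ⟪ket k, ρ (ket k)⟫_ℂ) 1

/-- Finite mean photon number, `Tr ρ Σ_j a_j† a_j < ∞`. -/
def FiniteEnergy {n : ℕ} (ρ : Fock n →L[ℂ] Fock n) : Prop :=
  Summable (fun k : Conf n => (∑ j, (k j : ℝ)) * (⟪ket k, ρ (ket k)⟫_ℂ).re)

/-- The von Neumann entropy `-Tr ρ log ρ`. -/
def entropy {n : ℕ} (ρ : Fock n →L[ℂ] Fock n) : ℝ :=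
  ∑' k : Conf n, (⟪ket k, negMulLogOp ρ (ket k)⟫_ℂ).re

/-- The entropy photon number `N(ρ) = g⁻¹(S(ρ)/n)`, with `g⁻¹` the inverse of `g` on `[0,∞)`. -/
def photonNumber {n : ℕ} (ρ : Fock n →L[ℂ] Fock n) : ℝ :=
  Function.invFunOn g (Set.Ici 0) (entropy ρ / n)

/-- `ρAB = ρA ⊗ ρB`. -/
def IsProduct {n : ℕ} (ρA ρB : Fock n →L[ℂ] Fock n) (ρAB : Fock2 n →L[ℂ] Fock2 n) : Prop :=
  ∀ k l k' l' : Conf n, ⟪ket2 k l, ρAB (ket2 k' l')⟫_ℂ =
    ⟪ket k, ρA (ket k')⟫_ℂ * ⟪ket l, ρB (ket l')⟫_ℂ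

/-- `ρC` is the partial trace of `ρCD` over the second group of modes. -/
def IsMarginal {n : ℕ} (ρCD : Fock2 n →L[ℂ] Fock2 n) (ρC : Fock n →L[ℂ] Fock n) : Prop :=
  ∀ m m' : Conf n, HasSum (fun l : Conf n => ⟪ket2 m l, ρCD (ket2 m' l)⟫_ℂ) ⟪ket m, ρC (ket m')⟫_ℂ

/-- `ρC` is the output of the beam splitter of transmissivity `η` with inputs `ρA`, `ρB`. -/
def IsOutput {n : ℕ} (η : ℝ) (ρA ρB ρC : Fock n →L[ℂ] Fock n) : Prop :=
  ∃ (U : Fock2 n ≃ₗᵢ[ℂ] Fock2 n) (ρAB : Fock2 n →L[ℂ] Fock2 n),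
    IsBeamSplitter η U ∧ IsProduct ρA ρB ρAB ∧
    IsMarginal ((U : Fock2 n →L[ℂ] Fock2 n) ∘L ρAB ∘L (U.symm : Fock2 n →L[ℂ] Fock2 n)) ρC

/-- `ρ` is diagonal in the number basis with eigenvalues nonincreasing in each photon number. -/
def IsPassive {n : ℕ} (ρ : Fock n →L[ℂ] Fock n) : Prop :=
  ∃ p : Conf n → ℝ, Antitone p ∧ ∀ k, ρ (ket k) = (p k : ℂ) • ket k

end

end Vale.Agent.P369
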