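import Mathlib.Algebra.GroupWithZero.Action.Pointwise.Finset
import Mathlib.Algebra.Order.Quantale
import Mathlib.Algebra.Order.Sub.Prod
import Mathlib.Algebra.Ring.IsFormallyReal
import Mathlib.Analysis.CStarAlgebra.CStarMatrix
import Mathlib.Analysis.Calculus.Deriv.Star
import Mathlib.Analysis.Calculus.SmoothSeries
import Mathlib.Analysis.InnerProductSpace.StarOrder
import Mathlib.Analysis.InnerProductSpace.WeakOperatorTopology
import Mathlib.Analysis.InnerProductSpace.l2Space
import Mathlib.Analysis.Normed.Group.Tannery
import Mathlib.Analysis.SpecialFunctions.Complex.LogBounds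
import Mathlib.Data.Finset.MulAntidiagonal
import Mathlib.Data.Int.Star
import Mathlib.Data.Pi.Interval
import Mathlib.LinearAlgebra.Matrix.Charpoly.Disc
import Mathlib.LinearAlgebra.Matrix.FiniteDimensional
import Mathlib.LinearAlgebra.Matrix.Swap
import Mathlib.Logic.Godel.GodelBetaFunction
import Mathlib.Order.CompletePartialOrder
import Mathlib.RingTheory.Etale.Weakly
import Mathlib.RingTheory.Finiteness.ModuleFinitePresentation
import Mathlib.RingTheory.Flat.TorsionFree
import Mathlib.RingTheory.PowerSeries.Substitution
import Mathlib.RingTheory.SimpleRing.Principal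
import Mathlib.RingTheory.TotallySplit
import Mathlib.Tactic
import Mathlib.Topology.Algebra.ProperAction.Basic
import Mathlib.Topology.UniformSpace.Uniformizable

/-! The part of Mathlib that the development of this folder uses. -/
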